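import Vale.Agent.P286EM.Kit

/-!
# The normal form on the chart `a` for `SO_3`
-/

set_option linter.all false

namespace Vale.Agent.P286EM

open Matrix Vale.Agent.P286 Vale.Agent.P286E Vale.Agent.P286EN Vale.Agent.P286EB

noncomputable section

attribute [-instance] HahnSeries.powerSeriesAlgebra

variable {A : Type} [CommRing A] [Algebra ℂ A] {E : Ell} {e : Rt E}

theorem vv_eq {x : A} {Z π : Matrix (Fin 3) (Fin 3) A} {ξ : Fin 3 → A} (h : Vv e x Z ξ)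
    (hs : πᵀ = π) (ht : trace π = 1) (hr : Rk1 π) (hy : y3 ξ * π = 0) (hz : Z * π = 0)
    (hz' : π * Z = 0) : ξ ⬝ᵥ ξ = fv E x ∧ Z = (x - ea e A) • (1 - π) := by
  have h1 : gv e x • Z = (ξ ⬝ᵥ ξ) • (1 - π) := h.yy.symm.trans (y3_sq hs ht hy)
  have h2 : Z.adjugate = π * Z.adjugate := by
    conv_lhs => rw [show Z = Z * (1 - π) by rw [mul_sub, hz, sub_zero, mul_one],
      adjugate_mul_distrib, adj_rk hr ht]
  rw [h.adj, mul_sub, mul_smul_comm, mul_smul_comm, hz', smul_zero, sub_zero, mul_one] at h2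
  have h3 := congrArg trace h1
  rw [trace_smul, trace_smul, h.tr, trace_sub, ht, trace_one, Fintype.card_fin, smul_eq_mul,
    smul_eq_mul] at h3
  have h4 : ξ ⬝ᵥ ξ = gv e x * (x - ea e A) :=
    (unit_two (A := A)).mul_left_cancel (by push_cast at h3; linear_combination -h3)
  obtain ⟨k, hk⟩ := bez_c (A := A) e
  refine ⟨?_, ?_⟩
  · rw [h4, gv, fv]
    linear_combination -ea_rt (A := A) e
  · ext i j
    have k1 := congrFun (congrFun h1 i) j
    have k2 := congrFun (congrFun h2 i) j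
    simp only [Matrix.smul_apply, Matrix.sub_apply, smul_eq_mul] at k1 k2 ⊢
    rw [h4] at k1
    linear_combination k * k1 + k * (x + 2 * ea e A) * k2 -
      (Z i j - (x - ea e A) * ((1 : Matrix (Fin 3) (Fin 3) A) i j - π i j)) * hk x

theorem core (hV : VOL) {M : Submodule A (Fin 3 → Ls A)} (hS : Stab (Rg E A) M)
    (hf : ∀ m ∈ M, ∀ m' ∈ M, E.Reg (m ⬝ᵥ m'))
    (hv : ∀ m : Fin 3 → Fin 3 → Ls A, (∀ i, m i ∈ M) → E.Reg (of m).det)
    {W : Matrix (Fin 3) (Fin 3) (Ls A)} (hW : Col M W) (hI : IntM W) (ht : trace (W * Wᵀ) = 1)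
    (hr : Rk1 (W * Wᵀ)) (hWW : W * Wᵀ * W = W) (hc : Cpl (tw e (W * Wᵀ) M)) :
    ∃ (a : Matrix (Fin 3) (Fin 3) (Ls A)) (x : A) (ξ : Fin 3 → A) (π : Matrix (Fin 3) (Fin 3) A),
      a.det = 1 ∧ aᵀ * a = 1 ∧ IntM a ∧ ξ ⬝ᵥ ξ = fv E x ∧ πᵀ = π ∧ trace π = 1 ∧ Rk1 π ∧
      y3 ξ * π = 0 ∧ M = (tw e (cm π) (U E (ea e A • π + x • (1 - π)) (y3 ξ))).map (act a) := by
  have h2 : W * Wᵀ * (W * Wᵀ) = W * Wᵀ := by rw [← mul_assoc, hWW]
  have hs : (W * Wᵀ)ᵀ = W * Wᵀ := by rw [transpose_mul, transpose_transpose]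
  have hπ : ∀ m ∈ M, (W * Wᵀ) *ᵥ m ∈ M := fun m hm => by
    rw [← mulVec_mulVec]
    exact hW.mulVec hS fun i => hf _ (hW i) _ hm
  obtain ⟨a, X, Y, ha, hp, hM, hX, hY, hA, hd⟩ :=
    nf_frm (F := 1) (by rw [det_one]; exact isUnit_one) (stab_tw hS) hc (frm_tw h2 hs hf)
  rw [mul_one, one_mul] at hX hY
  rw [cm_one, mul_one] at hA
  have hA' : a * aᵀ = 1 := mul_eq_one_comm.1 hA
  obtain ⟨ξ, rfl⟩ := exists_y3 hY
  obtain ⟨c, lc⟩ : ∃ c, Lead 0 W c := ⟨_, OrdM.lead hI⟩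
  have lπ : Lead 0 (W * Wᵀ) (c * cᵀ) := lc.mul lc.transpose
  obtain ⟨π, hπc⟩ : ∃ π, π = c * cᵀ := ⟨_, rfl⟩
  rw [← hπc] at lπ
  obtain ⟨g1, g2, g3⟩ := rig (E := E) (H := π) ((lπ.mul ha).cast rfl (mul_one _)) ha hp.comm hp.comm
    fun m hm => by
      rw [← hM, ← mulVec_mulVec]
      exact tw_pi h2 _ (hM ▸ ⟨m, hm, rfl⟩)
  have s1 : πᵀ = π := by rw [hπc, transpose_mul, transpose_transpose]
  have s2 : π * π = π := ((lπ.mul lπ).cast rfl rfl).uniq (h2.symm ▸ lπ)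
  have s3 : trace π = 1 := by
    have h := congrArg (fun w : Ls A => w.coeff 0) ht
    simp only [trace_fin_three, HahnSeries.coeff_add, lπ.2, HahnSeries.coeff_one, if_true] at h
    rw [trace_fin_three, h]
  have s4 : Rk1 π := fun i j k l => by
    have h1 := coeff_mul_lead (lπ.1 i j) (lπ.1 k l)
    have h3 := coeff_mul_lead (lπ.1 i l) (lπ.1 k j)
    rw [hr i j k l, h3, lπ.2, lπ.2, lπ.2, lπ.2] at h1
    exact h1.symm
  have s5 : y3 ξ * π = 0 := by
    have h1 : trace (π * y3 ξ) = -trace (π * y3 ξ) := by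
      conv_lhs => rw [← trace_transpose, transpose_mul, hY, s1, neg_mul, trace_neg, trace_mul_comm]
    have h3 : trace (π * y3 ξ) = 0 :=
      (unit_two (A := A)).mul_left_cancel (by linear_combination h1)
    rw [← s2, ← mul_assoc, ← g3, sand s4, h3, zero_smul]
  have g4 : aᵀ * (W * Wᵀ) = cm π * aᵀ := by
    rw [← mul_one (aᵀ * _), ← hA', ← mul_assoc, mul_assoc aᵀ, g1, ← mul_assoc, hA, one_mul]
  have c1 : Col (U E X (y3 ξ)) (aᵀ * (sr (ea e A) • W)) := fun j => by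
    have h1 : (W * Wᵀ) *ᵥ (fun i => (sr (ea e A) • W) i j) = fun i => (sr (ea e A) • W) i j := by
      change (fun i => (W * Wᵀ * (sr (ea e A) • W)) i j) = _
      rw [mul_smul_comm, hWW]
    have h3 : (fun i => (sr (ea e A) • W) i j) ∈ tw e (W * Wᵀ) M := by
      rw [mem_tw_of h1]
      change sr (ea e A) • sr (ea e A) • (fun i => W i j) ∈ M ∧
        (ys E A * sI (ea e A)) • sr (ea e A) • (fun i => W i j) ∈ M
      rw [smul_smul, smul_smul, sr_sq, mul_comm, sr_y]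
      exact ⟨hS.px _ (xe_mem e) _ (hW j), hS _ (ys_mem_Rg E) _ (hW j)⟩
    rw [hM, mem_map_act hA'] at h3
    exact h3
  have l1 : Lead (-1) (aᵀ * (sr (ea e A) • W)) c :=
    (ha.transpose.mul (Lead.smul (ord_sr _) (sr_coeff _) lc)).cast rfl
      (by rw [transpose_one, one_mul])
  have e1 : aᵀ * (sr (ea e A) • W) = rho X * cm c :=
    sub_eq_zero.1 ((cpl_U E X (y3 ξ)).kill
      (c1.sub ((col_lat_left _ _).mul (stab_lat _ _) (ent_cm c)))
      (l1.sub (((lead_rho X).mul (lead_cm c)).cast rfl (one_mul _))))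
  have e2 : xe e A • cm π = (xs A • 1 - cm X) * cm π := by
    have h1 := congrArg (fun S => S * Sᵀ) e1
    beta_reduce at h1
    rw [transpose_mul, transpose_mul, transpose_smul, transpose_transpose, mul_smul_comm,
      smul_mul_assoc, smul_mul_assoc, mul_smul_comm, smul_smul, sr_sq, ← mul_assoc, mul_assoc aᵀ,
      g4, mul_assoc, hA, mul_one, rho_transpose, hX, cm_transpose, mul_assoc, ← mul_assoc (cm c),
      ← cm_mul, ← hπc, rho_inter g2, ← mul_assoc, rho_mul_rho] at h1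
    exact h1
  have e3 : X * π = ea e A • π := cm_inj (by
    rw [xe, sub_smul, sub_mul, smul_mul_assoc, one_mul, sub_right_inj] at e2
    rw [cm_mul, cm_smul, e2])
  obtain ⟨x, hx⟩ := (hV E e A X ξ hX hp).1 fun m hm => by
    have h1 := vol_tw (e := e) hr ht hv (fun i => a *ᵥ m i) fun i => hM ▸ ⟨m i, hm i, rfl⟩
    rwa [det_rows, hd, one_mul] at h1
  obtain ⟨q1, q2⟩ := vv_eq hx s1 s3 s4 s5
    (by rw [sub_mul, e3, smul_mul_assoc, one_mul, sub_self])
    (by rw [mul_sub, g2, e3, mul_smul_comm, mul_one, sub_self])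
  have q3 : ea e A • π + x • (1 - π) = X := by
    rw [← sub_add_cancel X (ea e A • 1), q2]
    module
  refine ⟨a, x, ξ, π, hd, hA, ha.1, q1, s1, s3, s4, s5, ?_⟩
  rw [q3, ← tw_map hA' g4, ← hM, tw_tw hS h2 hπ]

/-- The normal form on the chart `a` for `SO_3`. -/
theorem nfo3a (hC : CPA) (hV : VOL) : NFO SO3 .a := by
  intro E e A _ _ _ v M T ho hv hM hu
  have hF : cst A SO3.F = 1 := cst_one
  have hf : ∀ m ∈ M, ∀ m' ∈ M, E.Reg (m ⬝ᵥ m') := fun m hm m' hm' => by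
    have h := ho.form m hm m' hm'
    rwa [hF, one_mulVec] at h
  obtain ⟨W, h1, h2, h3, h4, h5, h6⟩ := hC E e A v M hv hM ho.reg hf ho.vol hu
  obtain ⟨a, x, ξ, π, k1, k2, k3, k4, k5, k6, k7, k8, k9⟩ :=
    core hV (e := e) ho.reg hf ho.vol h1 h2 h3 h4 h5 h6
  refine ⟨a, x, ξ, π, ⟨k1, by rw [hF, mul_one]; exact k2⟩, k3,
    ⟨k4, fun h => (by cases h), fun h => (by cases h), fun _ => ⟨?_, ?_, k7, k8⟩⟩, k9⟩
  · have h : SO3.F.map (algebraMap ℂ A) = 1 := Matrix.map_one _ (map_zero _) (map_one _)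
    rw [h]
    exact (mul_one πᵀ).trans (k5.trans (one_mul π).symm)
  · refine k6.trans ?_
    change (1 : A) = ((3 : ℕ) : A) - 2
    norm_num

end

end Vale.Agent.P286EM
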