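import Vale.Agent.P286EB.IF
import Vale.Agent.P286EN.Adj

/-!
# Twists of lattices and projectors of rank one
-/

set_option linter.all false

namespace Vale.Agent.P286EM

open Matrix Vale.Agent.P286 Vale.Agent.P286E Vale.Agent.P286EN Vale.Agent.P286EB

noncomputable section

attribute [-instance] HahnSeries.powerSeriesAlgebra

section Alg

variable {R : Type} [CommRing R] {π : Matrix (Fin 3) (Fin 3) R}

theorem det_rk (h : Rk1 π) (ht : trace π = 1) (u : R) : (1 - π + u • π).det = u := by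
  rw [trace_fin_three] at ht
  have e : (1 - π + u • π) = of fun i j => (if i = j then 1 else 0) + (u - 1) * π i j := by
    ext i j
    rw [Matrix.add_apply, Matrix.sub_apply, Matrix.smul_apply, Matrix.one_apply, of_apply,
      smul_eq_mul]
    ring
  rw [e, det_fin_three]
  simp only [of_apply, if_true, Fin.reduceEq, if_false]
  linear_combination (u - 1) * ht + (u - 1) ^ 2 * (h 0 0 1 1 + h 0 0 2 2 + h 1 1 2 2) +
    (u - 1) ^ 3 * (π 0 0 * h 1 1 2 2 - π 0 1 * h 1 0 2 2 + π 0 2 * h 1 0 2 1)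

theorem adj_rk (h : Rk1 π) (ht : trace π = 1) : (1 - π).adjugate = π := by
  rw [trace_fin_three] at ht
  rw [adjugate_fin_three]
  ext i j
  fin_cases i <;> fin_cases j <;> simp [Matrix.one_apply]
  · linear_combination h 1 1 2 2 - ht
  · linear_combination -h 0 1 2 2
  · linear_combination h 0 1 1 2
  · linear_combination -h 1 0 2 2
  · linear_combination h 0 0 2 2 - ht
  · linear_combination -h 0 0 1 2
  · linear_combination h 1 0 2 1
  · linear_combination -h 0 0 2 1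
  · linear_combination h 0 0 1 1 - ht

theorem sand (h : Rk1 π) (Y : Matrix (Fin 3) (Fin 3) R) : π * Y * π = trace (π * Y) • π := by
  ext i l
  simp only [Matrix.mul_apply, Matrix.smul_apply, trace_fin_three, Fin.sum_univ_three, smul_eq_mul]
  linear_combination Y 0 0 * h i 0 0 l + Y 0 1 * h i 0 1 l + Y 0 2 * h i 0 2 l +
    Y 1 0 * h i 1 0 l + Y 1 1 * h i 1 1 l + Y 1 2 * h i 1 2 l + Y 2 0 * h i 2 0 l +
    Y 2 1 * h i 2 1 l + Y 2 2 * h i 2 2 l

end Alg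

variable {A : Type} [CommRing A] [Algebra ℂ A] {N : ℕ} {E : Ell}

/-- The imaginary unit. -/
def ii (A : Type) [CommRing A] [Algebra ℂ A] : A := algebraMap ℂ A Complex.I

theorem ii_sq : ii A * ii A = -1 := iota_I (algebraMap ℂ A)

theorem y3_eq (ξ : Fin 3 → A) : y3 ξ = !![0, -(ii A * ξ 2), ii A * ξ 1; ii A * ξ 2, 0, -(ii A * ξ 0);
    -(ii A * ξ 1), ii A * ξ 0, 0] := by
  change ∑ i, ξ i • (b3 i).map (algebraMap ℂ A) = _
  ext i j
  fin_cases i <;> fin_cases j <;> simp [b3, ii, Fin.sum_univ_three, mul_comm]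

theorem exists_y3 {Y : Matrix (Fin 3) (Fin 3) A} (h : Yᵀ = -Y) : ∃ ξ, Y = y3 ξ :=
  ⟨fun i => algebraMap ℂ A 2⁻¹ * trace ((b3 i).map (algebraMap ℂ A) * Y),
    span3 A (algebraMap ℂ A) Y (by
    rw [Matrix.map_one _ (map_zero _) (map_one _), Matrix.mul_one, Matrix.one_mul, h,
      neg_add_cancel])⟩

theorem y3_sq {π : Matrix (Fin 3) (Fin 3) A} (hs : πᵀ = π) (ht : trace π = 1) {ξ : Fin 3 → A}
    (h : y3 ξ * π = 0) : y3 ξ * y3 ξ = (ξ ⬝ᵥ ξ) • (1 - π) := by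
  have hi := ii_sq (A := A)
  have k := fun i j => congrFun (congrFun h i) j
  have s := fun i j => congrFun (congrFun hs i) j
  simp only [transpose_apply] at s
  have k0 : ∀ j, ξ 2 * π 1 j = ξ 1 * π 2 j := fun j => by
    have := k 0 j
    simp [y3_eq, Matrix.mul_apply, Fin.sum_univ_three] at this
    linear_combination ii A * this + (ξ 2 * π 1 j - ξ 1 * π 2 j) * hi
  have k1 : ∀ j, ξ 2 * π 0 j = ξ 0 * π 2 j := fun j => by
    have := k 1 j
    simp [y3_eq, Matrix.mul_apply, Fin.sum_univ_three] at this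
    linear_combination -ii A * this + (ξ 2 * π 0 j - ξ 0 * π 2 j) * hi
  have k2 : ∀ j, ξ 1 * π 0 j = ξ 0 * π 1 j := fun j => by
    have := k 2 j
    simp [y3_eq, Matrix.mul_apply, Fin.sum_univ_three] at this
    linear_combination ii A * this + (ξ 1 * π 0 j - ξ 0 * π 1 j) * hi
  have c : ∀ i j l, ξ i * π j l = ξ j * π i l := fun i j l => by
    fin_cases i <;> fin_cases j <;> simp [k0, k1, k2]
  have key : ∀ i j, ξ i * ξ j = (ξ ⬝ᵥ ξ) * π i j := fun i j => by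
    have h1 : ∀ l, ξ i * ξ j * π l l = ξ l * ξ l * π i j := fun l => by
      linear_combination ξ i * c j l l + ξ l * ξ i * s l j + ξ l * c i l j
    rw [trace_fin_three] at ht
    simp only [dotProduct, Fin.sum_univ_three]
    linear_combination h1 0 + h1 1 + h1 2 - ξ i * ξ j * ht
  ext i j
  rw [Matrix.smul_apply, Matrix.sub_apply, smul_eq_mul, mul_sub, ← key]
  fin_cases i <;> fin_cases j <;>
    simp [y3_eq, Matrix.mul_apply, Fin.sum_univ_three, dotProduct, Matrix.one_apply]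
  · linear_combination -(ξ 2 ^ 2 + ξ 1 ^ 2) * hi
  · linear_combination ξ 1 * ξ 0 * hi
  · linear_combination ξ 2 * ξ 0 * hi
  · linear_combination ξ 1 * ξ 0 * hi
  · linear_combination -(ξ 2 ^ 2 + ξ 0 ^ 2) * hi
  · linear_combination ξ 1 * ξ 2 * hi
  · linear_combination ξ 2 * ξ 0 * hi
  · linear_combination ξ 1 * ξ 2 * hi
  · linear_combination -(ξ 0 ^ 2 + ξ 1 ^ 2) * hi

theorem sr_sq (c : A) : sr c * sr c = xs A - HahnSeries.C c := by
  have h := congrFun (congrFun (rho_mul_rho (N := 1) (of fun _ _ => c)) 0) 0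
  rw [Matrix.mul_apply, Fin.sum_univ_one, Matrix.sub_apply, Matrix.smul_apply, one_apply_eq,
    smul_eq_mul, mul_one] at h
  exact h

theorem sr_sI (c : A) : sr c * sI c = 1 := by
  have h := congrFun (congrFun (rho_mul_rhoI (N := 1) (of fun _ _ => c)) 0) 0
  rw [Matrix.mul_apply, Fin.sum_univ_one, one_apply_eq] at h
  exact h

theorem ord_sr (c : A) : Ord (-1) (sr c) := (lead_rho (N := 1) _).1 0 0

theorem sr_coeff (c : A) : (sr c).coeff (-1) = 1 := (lead_rho (N := 1) _).2 0 0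

variable (e : Rt E)

/-- The function `x - e`. -/
def xe (A : Type) [CommRing A] [Algebra ℂ A] : Ls A := xs A - HahnSeries.C (ea e A)

/-- The function `g(x)`. -/
def gx (A : Type) [CommRing A] [Algebra ℂ A] : Ls A :=
  xs A ^ 2 + HahnSeries.C (ea e A) * xs A + (HahnSeries.C (ea e A) ^ 2 + cc A E.a)

theorem xe_mem : xe e A ∈ Px A := (Px A).sub_mem xs_mem_Px (C_mem_Px _)

theorem gx_mem : gx e A ∈ Px A :=
  (Px A).add_mem ((Px A).add_mem ((Px A).pow_mem xs_mem_Px 2)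
    ((Px A).mul_mem (C_mem_Px _) xs_mem_Px))
    ((Px A).add_mem ((Px A).pow_mem (C_mem_Px _) 2) (cc_mem _))

theorem ea_rt : ea e A ^ 3 + algebraMap ℂ A E.a * ea e A + algebraMap ℂ A E.b = 0 := by
  have h := congrArg (algebraMap ℂ A) e.rt
  simpa [ea] using h

theorem ys_fac : ys E A * ys E A = xe e A * gx e A := by
  have h := congrArg (HahnSeries.C : A →+* Ls A) (ea_rt (A := A) e)
  rw [map_add, map_add, map_pow, map_mul, map_zero] at h
  rw [ys_sq, xe, gx, cc, cc]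
  linear_combination h

theorem sr_y : sr (ea e A) * (ys E A * sI (ea e A)) = ys E A := by
  linear_combination ys E A * sr_sI (ea e A)

theorem yI_sq : ys E A * sI (ea e A) * (ys E A * sI (ea e A)) = gx e A := by
  have h1 := sr_sI (ea e A)
  have h2 : sr (ea e A) * sr (ea e A) = xe e A := sr_sq _
  linear_combination sI (ea e A) ^ 2 * ys_fac (A := A) e - sI (ea e A) ^ 2 * gx e A * h2 +
    gx e A * (sr (ea e A) * sI (ea e A) + 1) * h1

theorem bez_c : ∃ k : A, ∀ x : A, k * (gv e x - (x - ea e A) * (x + 2 * ea e A)) = 1 := by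
  refine ⟨algebraMap ℂ A e.d⁻¹, fun x => ?_⟩
  have h : gv e x - (x - ea e A) * (x + 2 * ea e A) = algebraMap ℂ A e.d := by
    rw [gv, Rt.d, map_add, map_mul, map_pow, map_ofNat, ea]
    ring
  rw [h, ← map_mul, inv_mul_cancel₀ e.d_ne, map_one]

theorem bez : ∃ p ∈ Px A, ∃ q ∈ Px A, p * xe e A + q * gx e A = 1 := by
  obtain ⟨k, hk⟩ := bez_c (A := A) e
  have h := congrArg (HahnSeries.C : A →+* Ls A) (hk 0)
  simp only [gv, map_mul, map_sub, map_add, map_pow, map_one, map_zero, map_ofNat] at h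
  refine ⟨-(HahnSeries.C k * (xs A + 2 * HahnSeries.C (ea e A))), (Px A).neg_mem ((Px A).mul_mem
    (C_mem_Px _) ((Px A).add_mem xs_mem_Px ((Px A).mul_mem (natCast_mem (Px A) 2) (C_mem_Px _)))),
    HahnSeries.C k, C_mem_Px _, ?_⟩
  rw [xe, gx, cc]
  linear_combination h

variable {e} {π : Matrix (Fin N) (Fin N) (Ls A)} {M : Submodule A (Fin N → Ls A)}

theorem mem_tw {m : Fin N → Ls A} : m ∈ tw e π M ↔ m - π *ᵥ m ∈ M ∧ sr (ea e A) • π *ᵥ m ∈ M ∧
    (ys E A * sI (ea e A)) • π *ᵥ m ∈ M := by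
  rw [tw, Submodule.mem_inf, Submodule.mem_inf, Submodule.mem_comap, Submodule.mem_comap,
    Submodule.mem_comap, act_apply, act_apply, act_apply, sub_mulVec, one_mulVec, smul_mulVec,
    smul_mulVec, and_assoc]

theorem stab_tw {R : Subring (Ls A)} (h : Stab R M) : Stab R (tw e π M) := fun w hw m hm => by
  obtain ⟨h1, h2, h3⟩ := mem_tw.1 hm
  rw [mem_tw, mulVec_smul, ← smul_sub, smul_comm _ w, smul_comm _ w]
  exact ⟨h w hw _ h1, h w hw _ h2, h w hw _ h3⟩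

theorem cop (h : Stab (Rg E A) M) {z : Fin N → Ls A} (h1 : xe e A • z ∈ M) (h2 : gx e A • z ∈ M) :
    z ∈ M := by
  obtain ⟨p, hp, q, hq, h0⟩ := bez (A := A) e
  rw [← one_smul (Ls A) z, ← h0, add_smul, mul_smul, mul_smul]
  exact M.add_mem (h.px p hp _ h1) (h.px q hq _ h2)

theorem tw_pi (h2 : π * π = π) (m : Fin N → Ls A) (hm : m ∈ tw e π M) : π *ᵥ m ∈ tw e π M := by
  obtain ⟨-, k2, k3⟩ := mem_tw.1 hm
  rw [mem_tw, mulVec_mulVec, h2, sub_self]
  exact ⟨M.zero_mem, k2, k3⟩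

theorem mem_tw_of {z : Fin N → Ls A} (hz : π *ᵥ z = z) : z ∈ tw e π M ↔ sr (ea e A) • z ∈ M ∧
    (ys E A * sI (ea e A)) • z ∈ M := by
  rw [mem_tw, hz, sub_self]
  exact ⟨fun h => h.2, fun h => ⟨M.zero_mem, h⟩⟩

theorem tw_tw (h : Stab (Rg E A) M) (h2 : π * π = π) (hπ : ∀ m ∈ M, π *ᵥ m ∈ M) :
    tw e π (tw e π M) = M := by
  ext m
  have e1 : π *ᵥ (π *ᵥ m) = π *ᵥ m := by rw [mulVec_mulVec, h2]
  have e2 : ∀ w : Ls A, π *ᵥ (w • π *ᵥ m) = w • π *ᵥ m := fun w => by rw [mulVec_smul, e1]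
  have e3 : sr (ea e A) * sr (ea e A) = xe e A := sr_sq _
  rw [mem_tw, mem_tw_of (e2 _), mem_tw_of (e2 _), mem_tw, mulVec_sub, e1, sub_self, sub_zero,
    smul_zero, smul_zero, smul_smul, smul_smul, smul_smul, smul_smul, e3, mul_comm _ (sr _), sr_y,
    yI_sq]
  refine ⟨fun ⟨⟨k1, _⟩, ⟨k2, _⟩, _, k3⟩ => ?_, fun hm => ?_⟩
  · rw [← sub_add_cancel m (π *ᵥ m)]
    exact M.add_mem k1 (cop h k2 k3)
  · have k := hπ m hm
    exact ⟨⟨M.sub_mem hm k, M.zero_mem, M.zero_mem⟩, ⟨h.px _ (xe_mem e) _ k, h _ (ys_mem_Rg E) _ k⟩,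
      h _ (ys_mem_Rg E) _ k, h.px _ (gx_mem e) _ k⟩

theorem mem_map_act {a b : Matrix (Fin N) (Fin N) (Ls A)} (hab : a * b = 1) {m : Fin N → Ls A} :
    m ∈ M.map (act a) ↔ b *ᵥ m ∈ M := by
  refine ⟨?_, fun h => ⟨_, h, by rw [act_apply, mulVec_mulVec, hab, one_mulVec]⟩⟩
  rintro ⟨m, hm, rfl⟩
  rwa [act_apply, mulVec_mulVec, mul_eq_one_comm.1 hab, one_mulVec]

theorem tw_map {a b π' : Matrix (Fin N) (Fin N) (Ls A)} (hab : a * b = 1) (h : b * π = π' * b) :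
    tw e π (M.map (act a)) = (tw e π' M).map (act a) := by
  ext m
  rw [mem_map_act hab, mem_tw, mem_tw, mem_map_act hab, mem_map_act hab, mem_map_act hab,
    mulVec_sub, mulVec_smul, mulVec_smul, mulVec_mulVec, mulVec_mulVec, h]

theorem frm_tw (h2 : π * π = π) (hs : πᵀ = π) (hf : ∀ m ∈ M, ∀ m' ∈ M, E.Reg (m ⬝ᵥ m')) :
    Frm E 1 (tw e π M) := fun m hm m' hm' => by
  obtain ⟨k1, k2, k3⟩ := mem_tw.1 hm
  obtain ⟨l1, l2, l3⟩ := mem_tw.1 hm'
  have e1 : ∀ u v : Fin N → Ls A, (π *ᵥ u) ⬝ᵥ v = u ⬝ᵥ π *ᵥ v := fun u v => by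
    rw [dotProduct_mulVec, ← hs, vecMul_transpose, hs]
  have e2 : (π *ᵥ m) ⬝ᵥ π *ᵥ m' = m ⬝ᵥ π *ᵥ m' := by rw [e1, mulVec_mulVec, h2]
  have e3 : sr (ea e A) * sr (ea e A) = xe e A := sr_sq _
  have r1 := hf _ k1 _ l1
  have r2 := hf _ k2 _ l2
  have r3 := hf _ k3 _ l3
  rw [sub_dotProduct, dotProduct_sub, dotProduct_sub, e2, e1, sub_self, sub_zero] at r1
  rw [smul_dotProduct, dotProduct_smul, smul_smul, e2, smul_eq_mul] at r2 r3
  rw [e3] at r2
  rw [yI_sq] at r3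
  obtain ⟨p, hp, q, hq, h0⟩ := bez (A := A) e
  have e4 : m ⬝ᵥ m' = m ⬝ᵥ m' - m ⬝ᵥ π *ᵥ m' + (p * (xe e A * m ⬝ᵥ π *ᵥ m') +
      q * (gx e A * m ⬝ᵥ π *ᵥ m')) := by linear_combination -(m ⬝ᵥ π *ᵥ m') * h0
  rw [cm_one, one_mulVec, e4]
  exact (Rg E A).add_mem r1 ((Rg E A).add_mem ((Rg E A).mul_mem (Px_le_Rg E hp) r2)
    ((Rg E A).mul_mem (Px_le_Rg E hq) r3))

theorem det_rows (a : Matrix (Fin N) (Fin N) (Ls A)) (m : Fin N → Fin N → Ls A) :
    (of fun i => a *ᵥ m i).det = a.det * (of m).det := by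
  have h : (of fun i => a *ᵥ m i) = of m * aᵀ := by
    ext1 i j
    rw [Matrix.mul_apply, of_apply, mulVec, dotProduct]
    exact Finset.sum_congr rfl fun k _ => mul_comm _ _
  rw [h, det_mul, det_transpose, mul_comm]

theorem vol_tw {π : Matrix (Fin 3) (Fin 3) (Ls A)} {M : Submodule A (Fin 3 → Ls A)} (h : Rk1 π)
    (ht : trace π = 1) (hv : ∀ m : Fin 3 → Fin 3 → Ls A, (∀ i, m i ∈ M) → E.Reg (of m).det)
    (m : Fin 3 → Fin 3 → Ls A) (hm : ∀ i, m i ∈ tw e π M) : InJ e (of m).det := by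
  have key : ∀ u : Ls A, (∀ i, u • π *ᵥ m i ∈ M) → E.Reg (u * (of m).det) := fun u hu => by
    have h1 := hv (fun i => (1 - π + u • π) *ᵥ m i) fun i => by
      rw [add_mulVec, sub_mulVec, one_mulVec, smul_mulVec]
      exact M.add_mem (mem_tw.1 (hm i)).1 (hu i)
    rwa [det_rows, det_rk h ht] at h1
  exact ⟨key _ fun i => (mem_tw.1 (hm i)).2.1, key _ fun i => (mem_tw.1 (hm i)).2.2⟩

end

end Vale.Agent.P286EM
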